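import Vale.Agent.P085.H551.Final

set_option autoImplicit false

open scoped InnerProductSpace

namespace Vale.Agent.Results.P085.NormDenseGenerators

open Vale.Agent.P085 Vale.Agent.P085.H551

/-- Let `H` be a separable complex Hilbert space and let `M` be a type `II_1` factor on `H`: a von
Neumann algebra whose centre consists of the scalars, which is infinite dimensional and has a
faithful normal tracial state `τ` (`τ x = ∑ ⟪ξ n, x (ξ n)⟫` for some vectors `ξ n`; every normal
state is of this form). Then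
* `M` is generated, as a von Neumann algebra, by a single element;
* moreover the single generators of `M` are dense in `M` for the operator norm. -/
theorem result {H : Type*} [NormedAddCommGroup H] [InnerProductSpace ℂ H] [CompleteSpace H]
    [TopologicalSpace.SeparableSpace H] (M : VonNeumannAlgebra H)
    (hfactor : ∀ z ∈ M, z ∈ M.commutant → ∃ c : ℂ, z = c • (1 : H →L[ℂ] H))
    (hinf : ¬ FiniteDimensional ℂ (Submodule.span ℂ (M : Set (H →L[ℂ] H))))
    (τ : (H →L[ℂ] H) → ℂ) (ξ : ℕ → H)
    (hnormal : ∀ x ∈ M, HasSum (fun n => ⟪ξ n, x (ξ n)⟫_ℂ) (τ x))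
    (hone : τ 1 = 1)
    (htrace : ∀ x ∈ M, ∀ y ∈ M, τ (x * y) = τ (y * x))
    (hfaithful : ∀ x ∈ M, τ (star x * x) = 0 → x = 0) :
    (∃ x ∈ M, ∀ N : VonNeumannAlgebra H, x ∈ N → M ≤ N) ∧
    ∀ y ∈ M, ∀ ε : ℝ, 0 < ε →
      ∃ x ∈ M, ‖x - y‖ < ε ∧ ∀ N : VonNeumannAlgebra H, x ∈ N → M ≤ N := by
  have hs : ∀ x ∈ M, HasSum (fun n => (((‖x (ξ n)‖ ^ 2 : ℝ)) : ℂ)) (τ (star x * x)) := by
    intro x hx
    have h1 := hnormal _ (mul_mem (star_mem hx) hx)
    convert h1 using 2 with n
    rw [mul_apply_eq_comp, ContinuousLinearMap.star_eq_adjoint,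
      ContinuousLinearMap.adjoint_inner_right, inner_self_eq_norm_sq_to_K]
    push_cast
    rfl
  have hM : IsII1Factor M := by
    refine ⟨hfactor, hinf, ξ, ?_, ?_, ?_⟩
    · have h1 := hs 1 (one_mem M)
      rw [star_one, one_mul, hone] at h1
      have h2 : HasSum (fun n => (((‖(1 : H →L[ℂ] H) (ξ n)‖ ^ 2 : ℝ)) : ℂ)) ((1 : ℝ) : ℂ) := by
        rwa [Complex.ofReal_one]
      exact Complex.hasSum_ofReal.1 h2
    · intro x hx
      have h1 := hs x hx
      have h2 := hs (star x) (star_mem hx)
      rw [star_star, ← htrace _ (star_mem hx) _ hx] at h2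
      have h3 := h1.tsum_eq.trans h2.tsum_eq.symm
      rw [← Complex.ofReal_tsum, ← Complex.ofReal_tsum] at h3
      exact Complex.ofReal_injective h3
    · intro x hx h
      apply hfaithful x hx
      refine (hs x hx).unique ?_
      have h1 : (fun n => (((‖x (ξ n)‖ ^ 2 : ℝ)) : ℂ)) = fun _ => 0 := by
        funext n
        rw [h n]; simp
      rw [h1]
      exact hasSum_zero
  refine ⟨?_, fun y hy ε hε => dense_generators hM hy hε⟩
  obtain ⟨x, hx, -, h⟩ := dense_generators hM (zero_mem M) one_pos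
  exact ⟨x, hx, h⟩

end Vale.Agent.Results.P085.NormDenseGenerators
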