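import Vale.Agent.P085.H598.Nil
import Vale.Agent.P085.H598.Modular
import Vale.Agent.P085.H598.Sparse

set_option autoImplicit false

namespace Vale.Agent.Results.P085.OptimalGenerators

open Vale.Agent.P085 Vale.Agent.P085.H598

/-- Every type `II_1` factor `M` on a separable Hilbert space is singly generated. Moreover
* `M` is generated by an operator `x` with `x ^ 3 = 0`, and by no operator with `x ^ 2 = 0`;
* `M` is generated by three projections, and by no two projections;
* `M` is generated by two unitaries `u`, `v` with `u ^ 2 = 1` and `v ^ 3 = 1`, that is, by a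
  unitary representation of the modular group `PSL(2, Z)`, the free product of `Z/2` and `Z/3`;
* for every `k` there are a partition of `1` into `2 ^ k` equivalent projections of `M` and a
  generator `x` of `M` with at most `2 ^ k` nonzero blocks `p i * x * p j` (among `4 ^ k`). -/
theorem result {H : Type*} [NormedAddCommGroup H] [InnerProductSpace ℂ H] [CompleteSpace H]
    [TopologicalSpace.SeparableSpace H] (M : VonNeumannAlgebra H) (hM : IsII1Factor M) :
    IsSinglyGenerated M ∧
    ((∃ x : H →L[ℂ] H, x ^ 3 = 0 ∧ IsGeneratedBy M {x}) ∧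
      ∀ x : H →L[ℂ] H, x ^ 2 = 0 → ¬ IsGeneratedBy M {x}) ∧
    ((∃ p q r : H →L[ℂ] H, IsStarProjection p ∧ IsStarProjection q ∧ IsStarProjection r ∧
        IsGeneratedBy M {p, q, r}) ∧
      ∀ p q : H →L[ℂ] H, IsStarProjection p → IsStarProjection q → ¬ IsGeneratedBy M {p, q}) ∧
    (∃ u v : H →L[ℂ] H, u ∈ unitary (H →L[ℂ] H) ∧ u ^ 2 = 1 ∧ v ∈ unitary (H →L[ℂ] H) ∧
      v ^ 3 = 1 ∧ IsGeneratedBy M {u, v}) ∧
    ∀ k : ℕ, ∃ (p : Fin (2 ^ k) → (H →L[ℂ] H)) (x : H →L[ℂ] H),
      IsPartition M p ∧ IsGeneratedBy M {x} ∧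
      {ij : Fin (2 ^ k) × Fin (2 ^ k) | p ij.1 * x * p ij.2 ≠ 0}.ncard ≤ 2 ^ k := by
  refine ⟨isSinglyGenerated_of_isII1Factor M hM, ⟨?_, ?_⟩, ⟨exists_three_projections hM, ?_⟩,
    exists_modular hM, exists_sparse hM⟩
  · obtain ⟨x, hx, hg⟩ := exists_nilpotent hM
    exact ⟨x, by rw [pow_succ, pow_two]; exact hx, hg⟩
  · intro x hx
    exact not_generated_sq_zero hM (by rwa [pow_two] at hx)
  · intro p q hp hq
    exact not_generated_two_projections hM hp hq

end Vale.Agent.Results.P085.OptimalGenerators
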